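import Vale.Agent.P181.TL.H248.AsmC

set_option autoImplicit false

/-!
# P181, TL (T4+): the bordered polynomials
-/

open MvPolynomial

namespace Vale.Agent.P181.TL.H248

open Vale.Agent.P181.T4 (HW finiteDimensional_HW rowOp rowOp_apply rowOp_leibniz rowOp_C rowOp_var
  mem_HW)
open Vale.Agent.P181.SZ.R1b (cmp coeff_cmp cmp_rowOp cdeg)
open Vale.Agent.P181.DG6.H887 (lsub lsub_X lsub_mem_HW)
open Vale.Agent.P181.TL

section

variable {k : ℕ} {ι η : Type} [Fintype ι] [Fintype η]

/-- One head. -/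
lemma sp_aeval_yy (F : MvPolynomial (Fin (k + 1) × ι) ℂ) :
    sp (k + 1) ι Unit (aeval (yy (fun _ => ())) F) = F := by
  have h2 : (sp (k + 1) ι Unit).comp (aeval (yy (k := k + 1) (fun _ : ι => ()))) =
      AlgHom.id ℂ _ := by
    apply MvPolynomial.algHom_ext
    intro q
    rw [AlgHom.comp_apply, aeval_X, yy, map_sub, map_mul, map_mul, sp_zero, sp_zero, sp_inl,
      sp_inr, one_mul, zero_mul, sub_zero]
    rfl
  exact DFunLike.congr_fun h2 F

/-- The exponent of the head. -/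
def EN {k : ℕ} (ι : Type) (tau : Fin (k + 1) → ℕ) : ι ⊕ Unit → ℕ :=
  Sum.elim (fun _ => 0) (fun _ => ∑ i : Fin k, tau i.succ)

lemma monomial_EN (tau : Fin (k + 1) → ℕ) :
    (monomial (w0 (k + 1) (EN ι tau)) 1 : MvPolynomial (Fin (k + 2) × (ι ⊕ Unit)) ℂ) =
      X (0, Sum.inr ()) ^ (∑ i : Fin k, tau i.succ) := by
  classical
  have h : w0 (k + 1) (EN ι tau) =
      Finsupp.single (0, Sum.inr ()) (∑ i : Fin k, tau i.succ) := by
    refine Finsupp.ext fun p => ?_
    obtain ⟨i, x⟩ := p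
    refine Fin.cases ?_ (fun i => ?_) i
    · rw [w0_zero]
      rcases x with j | h
      · rw [Finsupp.single_apply, if_neg (by simp)]
        rfl
      · rw [Finsupp.single_apply, if_pos rfl]
        rfl
    · rw [w0_succ, Finsupp.single_apply, if_neg]
      intro h
      exact Fin.succ_ne_zero i (congrArg Prod.fst h).symm
  rw [X_pow_eq_monomial, h]

lemma sum_EN (tau : Fin (k + 1) → ℕ) : ∑ x, EN ι tau x = ∑ i : Fin k, tau i.succ := by
  rw [Fintype.sum_sum_type]
  simp [EN]

/-- Divisibility. -/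
lemma quo_exists {tau : Fin (k + 1) → ℕ} {F : MvPolynomial (Fin (k + 1) × ι) ℂ}
    (hF : F ∈ HW (k + 1) ι tau) : ∃ G : MvPolynomial (Fin (k + 2) × (ι ⊕ Unit)) ℂ,
      aeval (yy (fun _ => ())) F = monomial (w0 (k + 1) (EN ι tau)) 1 * G := by
  have h := dvd_head hF (fun i => (X (i, Sum.inr ()) : MvPolynomial (Fin (k + 2) × (ι ⊕ Unit)) ℂ))
    (fun p => X (p.1, Sum.inl p.2)) X_prime (by
      rw [X_dvd_X]
      intro h
      have := congrArg Prod.fst h
      simp only at this
      exact absurd this zero_ne_one)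
  obtain ⟨G, hG⟩ := h
  refine ⟨G, ?_⟩
  rw [monomial_EN, ← hG]
  rfl

/-- The properties of the quotient. -/
lemma quo_props {c : ι → ℕ} {tau : Fin (k + 1) → ℕ} (hc : ∑ j, c j = ∑ i, tau i)
    {F : MvPolynomial (Fin (k + 1) × ι) ℂ} (hF : F ∈ KK (k + 1) ι c tau)
    {G : MvPolynomial (Fin (k + 2) × (ι ⊕ Unit)) ℂ}
    (hG : aeval (yy (fun _ => ())) F = monomial (w0 (k + 1) (EN ι tau)) 1 * G) :
    G ∈ HW (k + 2) (ι ⊕ Unit) (Fin.cons (tau 0) tau) ∧
      (∀ v, coeff v G ≠ 0 → ∀ x, ∑ i, v (i, x) = Sum.elim c (fun _ => tau 0) x) ∧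
      sp (k + 1) ι Unit G = F := by
  classical
  have hhd : ∀ h, hd (fun _ : ι => ()) c h = ∑ i, tau i := by
    intro h
    unfold hd
    rw [← hc]
    refine Finset.sum_congr ?_ fun _ _ => rfl
    ext j
    simp
  have hmo : mo (k + 1) c (fun _ : Unit => ∑ i, tau i) (fun _ => ()) c = 1 := by
    rw [mo]
    refine Finset.prod_eq_one fun x _ => ?_
    rcases x with j | h
    · rw [Sum.elim_inl, Nat.sub_self, pow_zero]
    · rw [Sum.elim_inr, hhd, Nat.sub_self, pow_zero]
  have hHH : HH (k + 1) c (fun _ : Unit => ∑ i, tau i) (fun _ => ()) c F =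
      monomial (w0 (k + 1) (EN ι tau)) 1 * G := by
    rw [HH_apply, hmo, one_mul, hG]
  have htot : ∑ i, tau i = tau 0 + ∑ i : Fin k, tau i.succ := Fin.sum_univ_succ _
  have h1 := HH_mem_HW (k := k + 1) (s := c) (p := fun _ : Unit => ∑ i, tau i)
    (l := fun _ => ()) (c := c) (tau := tau) (L := ∑ i, tau i) (fun j => le_rfl)
    (fun h => (hhd h).le) (by
      rw [hc]
      simp) hF
  rw [hHH] at h1
  have h2 : ∀ v, coeff v (monomial (w0 (k + 1) (EN ι tau)) 1 * G) ≠ 0 → ∀ x,
      ∑ i, v (i, x) = EN ι tau x + Sum.elim c (fun _ => tau 0) x := by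
    intro v hv x
    rw [← hHH] at hv
    rw [HH_col (k := k + 1) (fun j => le_rfl) (fun h => (hhd h).le) hF v hv x]
    rcases x with j | h
    · simp [EN]
    · simp only [EN, Sum.elim_inr, htot]
      omega
  refine ⟨w0_div_mem (EN ι tau) ?_, w0_div_col (EN ι tau) h2, ?_⟩
  · rw [sum_EN, ← htot]
    exact h1
  · have h3 := congrArg (sp (k + 1) ι Unit) hG
    rw [sp_aeval_yy, map_mul, sp_w0, one_mul] at h3
    exact h3.symm

/-- The bordered polynomial, one head. -/
noncomputable def Qm {c : ι → ℕ} {tau : Fin (k + 1) → ℕ} :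
    KK (k + 1) ι c tau →ₗ[ℂ] MvPolynomial (Fin (k + 2) × (ι ⊕ Unit)) ℂ where
  toFun F := (quo_exists F.2.1).choose
  map_add' F F' := by
    have h1 := (quo_exists F.2.1).choose_spec
    have h2 := (quo_exists F'.2.1).choose_spec
    have h3 := (quo_exists (F + F').2.1).choose_spec
    have hne : (monomial (w0 (k + 1) (EN ι tau)) 1 :
        MvPolynomial (Fin (k + 2) × (ι ⊕ Unit)) ℂ) ≠ 0 := by
      rw [Ne, monomial_eq_zero]
      exact one_ne_zero
    refine mul_left_cancel₀ hne ?_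
    rw [mul_add, ← h1, ← h2, ← h3, Submodule.coe_add, map_add]
  map_smul' a F := by
    have h1 := (quo_exists F.2.1).choose_spec
    have h3 := (quo_exists (a • F).2.1).choose_spec
    have hne : (monomial (w0 (k + 1) (EN ι tau)) 1 :
        MvPolynomial (Fin (k + 2) × (ι ⊕ Unit)) ℂ) ≠ 0 := by
      rw [Ne, monomial_eq_zero]
      exact one_ne_zero
    refine mul_left_cancel₀ hne ?_
    rw [RingHom.id_apply, mul_smul_comm, ← h1, ← h3, Submodule.coe_smul, map_smul]

lemma Qm_spec {c : ι → ℕ} {tau : Fin (k + 1) → ℕ} (F : KK (k + 1) ι c tau) :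
    aeval (yy (fun _ => ())) (F : MvPolynomial (Fin (k + 1) × ι) ℂ) =
      monomial (w0 (k + 1) (EN ι tau)) 1 * Qm F := (quo_exists F.2.1).choose_spec

/-- The specialization factors through the collapse of the heads. -/
lemma sp_collapse (G : MvPolynomial (Fin (k + 2) × (ι ⊕ η)) ℂ) :
    sp (k + 1) ι η G = sp (k + 1) ι Unit (rename (fun p : Fin (k + 2) × (ι ⊕ η) =>
      (p.1, Sum.map (id : ι → ι) (fun _ : η => ()) p.2)) G) := by
  have h2 : sp (k + 1) ι η = (sp (k + 1) ι Unit).comp (rename (R := ℂ)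
      (fun p : Fin (k + 2) × (ι ⊕ η) => (p.1, Sum.map (id : ι → ι) (fun _ : η => ()) p.2))) := by
    apply MvPolynomial.algHom_ext
    rintro ⟨i, x⟩
    rw [AlgHom.comp_apply, rename_X]
    simp only
    refine Fin.cases ?_ (fun i => ?_) i
    · rw [sp_zero, sp_zero]
    · rcases x with j | h
      · rw [Sum.map_inl, sp_inl, sp_inl, id]
      · rw [Sum.map_inr, sp_inr, sp_inr]
  exact DFunLike.congr_fun h2 G

open scoped Classical in
/-- The interface holds. -/
theorem psi (c : ι → ℕ) (r : η → ℕ) (tau : Fin (k + 1) → ℕ) (hr : ∑ h, r h = tau 0)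
    (hc : ∑ j, c j = ∑ i, tau i) : Psi k ι η c r tau := by
  let g : ι ⊕ η → ι ⊕ Unit := Sum.map id (fun _ => ())
  let u : ι ⊕ η → ℕ := Sum.elim c r
  have hg : ∀ s : ι ⊕ Unit, ∑ t ∈ Finset.univ.filter (fun t => g t = s), u t =
      Sum.elim c (fun _ => tau 0) s := by
    intro s
    rw [Finset.sum_filter, Fintype.sum_sum_type]
    rcases s with j | h
    · rw [Finset.sum_eq_single j, Finset.sum_eq_zero, add_zero]
      · simp [g, u]
      · intro h _
        simp [g]
      · intro j' _ hj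
        simp [g, hj]
      · intro h
        exact absurd (Finset.mem_univ _) h
    · rw [Finset.sum_eq_zero (s := (Finset.univ : Finset ι)), zero_add]
      · simp only [g, u, Sum.map_inr, Sum.elim_inr, if_true]
        exact hr
      · intro j _
        simp [g]
  refine ⟨coeff (Finsupp.equivFunOnFinite.symm u) (Pg g (Sum.elim c (fun _ => tau 0))),
    ((SZ.R1b.cmp u).comp (lsub (k + 2) (AG g)).toLinearMap).comp Qm, coeff_Pg hg, ?_, ?_, ?_⟩
  · intro F
    obtain ⟨h1, -, -⟩ := quo_props hc F.2 (Qm_spec F)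
    have h0 := lsub_mem_HW (AG g) h1
    rw [mem_HW] at h0
    refine ⟨fun v hv i => ?_, fun s i hsi => ?_⟩
    · change coeff v (SZ.R1b.cmp u (lsub (k + 2) (AG g) (Qm F))) ≠ 0 at hv
      rw [coeff_cmp] at hv
      by_cases h : cdeg v = u
      · rw [if_pos h] at hv
        exact h0.1 v hv i
      · rw [if_neg h] at hv
        exact absurd rfl hv
    · change rowOp s i (SZ.R1b.cmp u (lsub (k + 2) (AG g) (Qm F))) = 0
      rw [cmp_rowOp, h0.2 s i hsi, map_zero]
  · intro F v hv x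
    change coeff v (SZ.R1b.cmp u (lsub (k + 2) (AG g) (Qm F))) ≠ 0 at hv
    rw [coeff_cmp] at hv
    by_cases h : cdeg v = u
    · exact congrFun h x
    · rw [if_neg h] at hv
      exact absurd rfl hv
  · intro F
    obtain ⟨-, h2, h3⟩ := quo_props hc F.2 (Qm_spec F)
    change sp (k + 1) ι η (SZ.R1b.cmp u (lsub (k + 2) (AG g) (Qm F))) = _
    rw [sp_collapse]
    have h4 := collapse (g := g) h2 u
    rw [h4, map_smul, h3]

end

/-- **(T4+)** the lift with small heads. -/
theorem liftC : LiftC :=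
  liftC_of fun _ _ _ _ _ c r tau hr hc => psi c r tau hr hc

end Vale.Agent.P181.TL.H248
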