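import Vale.Agent.P181.TL.Defs
import Vale.Agent.P181.DU.H248.C

set_option autoImplicit false

/-!
# P181, TL (T4): the lift
-/

open MvPolynomial

namespace Vale.Agent.P181.TL.H248

open Vale.Agent.P181.T4 (HW finiteDimensional_HW rowOp rowOp_apply rowOp_leibniz rowOp_C rowOp_var)
open Vale.Agent.P181.SZ (PK)
open Vale.Agent.P181.SZR2 (wh_aeval weight_fintype wh_X)
open Vale.Agent.P181.SZR2a (rowOp_aeval rowOp_aeval_zero)
open Vale.Agent.P181.DGx.H248
open Vale.Agent.P181.DU.H248 (sb_equiv tr tr_apply coeff_sb_equiv split_equiv pr_inj)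

instance finiteDimensional_KK {m : ℕ} {σ : Type} [Fintype σ] (d : σ → ℕ) (mu : Fin m → ℕ) :
    FiniteDimensional ℂ (KK m σ d mu) :=
  Submodule.finiteDimensional_of_le (S₂ := HW m σ mu) (fun _ h => h.1)

open scoped Classical in
/-- The permutations which preserve `D`. -/
noncomputable def St {σ : Type} [Fintype σ] (D : σ → ℕ) : Finset (Equiv.Perm σ) :=
  Finset.univ.filter fun e => ∀ x, D (e x) = D x

lemma mem_St {σ : Type} [Fintype σ] {D : σ → ℕ} {e : Equiv.Perm σ} :
    e ∈ St D ↔ ∀ x, D (e x) = D x := by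
  simp [St]

/-- Symmetrization over the permutations which preserve the column degrees. -/
lemma sym_mem_PK {m : ℕ} {σ : Type} [Fintype σ] [DecidableEq σ] (D : σ → ℕ) (mu : Fin m → ℕ)
    {H : MvPolynomial (Fin m × σ) ℂ} (hH : H ∈ HW m σ mu)
    (hc : ∀ v, coeff v H ≠ 0 → ∀ j, ∑ i, v (i, j) = D j) :
    ∑ e ∈ St D, sb m e (fun _ => 1) H ∈ PK m σ D mu := by
  refine ⟨Submodule.sum_mem _ fun e _ => sb_mem_HW _ _ hH, fun v hv j => ?_, fun e' he' => ?_⟩
  · rw [coeff_sum] at hv
    obtain ⟨e, he, h1⟩ := Finset.exists_ne_zero_of_sum_ne_zero hv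
    rw [coeff_sb_equiv] at h1
    have h2 := hc _ h1 (e j)
    rw [mem_St.1 he j] at h2
    rw [← h2]
    refine Finset.sum_congr rfl fun i _ => ?_
    rw [tr_apply, Equiv.symm_apply_apply]
  · rw [map_sum]
    have he'' : ∀ x, D (e'.symm x) = D x := fun x => by
      have := he' (e'.symm x)
      rw [Equiv.apply_symm_apply] at this
      exact this.symm
    refine Finset.sum_bij' (fun e _ => e'.symm.trans e) (fun e _ => e'.trans e) ?_ ?_ ?_ ?_ ?_
    · intro e he
      refine mem_St.2 fun x => ?_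
      rw [Equiv.trans_apply, mem_St.1 he, he'']
    · intro e he
      refine mem_St.2 fun x => ?_
      rw [Equiv.trans_apply, mem_St.1 he, he']
    · intro e _
      ext x
      simp
    · intro e _
      ext x
      simp
    · intro e _
      rw [rename_sb]
      rfl

section lift

variable {k : ℕ} {ι η : Type}

/-- The substituted variables. -/
noncomputable def yy (l : ι → η) (q : Fin k × ι) : MvPolynomial (Fin (k + 1) × (ι ⊕ η)) ℂ :=
  X (0, Sum.inr (l q.2)) * X (q.1.succ, Sum.inl q.2) -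
    X (q.1.succ, Sum.inr (l q.2)) * X (0, Sum.inl q.2)

variable [Fintype ι] [Fintype η]

open scoped Classical in
/-- The degrees of the heads which are used. -/
noncomputable def hd (l : ι → η) (c : ι → ℕ) (h : η) : ℕ :=
  ∑ j ∈ Finset.univ.filter (fun j => l j = h), c j

/-- The monomial. -/
noncomputable def mo (k : ℕ) (s : ι → ℕ) (p : η → ℕ) (l : ι → η) (c : ι → ℕ) :
    MvPolynomial (Fin (k + 1) × (ι ⊕ η)) ℂ :=
  ∏ x : ι ⊕ η, X (0, x) ^ Sum.elim (fun j => s j - c j) (fun h => p h - hd l c h) x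

/-- The lifted polynomial before symmetrization. -/
noncomputable def HH (k : ℕ) (s : ι → ℕ) (p : η → ℕ) (l : ι → η) (c : ι → ℕ) :
    MvPolynomial (Fin k × ι) ℂ →ₗ[ℂ] MvPolynomial (Fin (k + 1) × (ι ⊕ η)) ℂ :=
  (LinearMap.mulLeft ℂ (mo k s p l c)) ∘ₗ (aeval (yy l)).toLinearMap

lemma HH_apply (s : ι → ℕ) (p : η → ℕ) (l : ι → η) (c : ι → ℕ) (F : MvPolynomial (Fin k × ι) ℂ) :
    HH k s p l c F = mo k s p l c * aeval (yy l) F := rfl

/-- Homogeneity of the monomial. -/
lemma wh_mo (s : ι → ℕ) (p : η → ℕ) (l : ι → η) (c : ι → ℕ)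
    (w : Fin (k + 1) × (ι ⊕ η) → ℕ) :
    IsWeightedHomogeneous w (mo k s p l c)
      (∑ x : ι ⊕ η, Sum.elim (fun j => s j - c j) (fun h => p h - hd l c h) x * w (0, x)) := by
  refine IsWeightedHomogeneous.prod _ _ _ fun x _ => ?_
  have h := (wh_X w (0, x) rfl).pow (Sum.elim (fun j => s j - c j) (fun h => p h - hd l c h) x)
  rwa [smul_eq_mul] at h

/-- Homogeneity of the variables. -/
lemma wh_yy (l : ι → η) (w : Fin (k + 1) × (ι ⊕ η) → ℕ) (q : Fin k × ι) (n : ℕ)
    (h1 : w (0, Sum.inr (l q.2)) + w (q.1.succ, Sum.inl q.2) = n)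
    (h2 : w (q.1.succ, Sum.inr (l q.2)) + w (0, Sum.inl q.2) = n) :
    IsWeightedHomogeneous w (yy l q) n := by
  have e1 := (isWeightedHomogeneous_X ℂ w (0, Sum.inr (l q.2))).mul
    (isWeightedHomogeneous_X ℂ w (q.1.succ, Sum.inl q.2))
  have e2 := (isWeightedHomogeneous_X ℂ w (q.1.succ, Sum.inr (l q.2))).mul
    (isWeightedHomogeneous_X ℂ w (0, Sum.inl q.2))
  rw [h1] at e1
  rw [h2] at e2
  exact e1.sub e2

/-- The column degrees. -/
lemma HH_col {s : ι → ℕ} {p : η → ℕ} {l : ι → η} {c : ι → ℕ} {tau : Fin k → ℕ}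
    (h2 : ∀ j, c j ≤ s j) (h4 : ∀ h, hd l c h ≤ p h) {F : MvPolynomial (Fin k × ι) ℂ}
    (hF : F ∈ KK k ι c tau) (v) (hv : coeff v (HH k s p l c F) ≠ 0) (x : ι ⊕ η) :
    ∑ i, v (i, x) = Sum.elim s p x := by
  classical
  have hw : ∀ v : Fin (k + 1) × (ι ⊕ η) →₀ ℕ, Finsupp.weight
      (fun q : Fin (k + 1) × (ι ⊕ η) => if q.2 = x then 1 else 0) v = ∑ i, v (i, x) := by
    intro v
    rw [weight_fintype, Fintype.sum_prod_type_right, Finset.sum_eq_single x]
    · refine Finset.sum_congr rfl fun i _ => ?_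
      rw [if_pos rfl, mul_one]
    · intro y _ hy
      refine Finset.sum_eq_zero fun i _ => ?_
      rw [if_neg hy, mul_zero]
    · intro h'
      exact absurd (Finset.mem_univ _) h'
  have e1 := wh_mo (k := k) s p l c
    (fun q : Fin (k + 1) × (ι ⊕ η) => if q.2 = x then 1 else 0)
  have e2 : ∑ y : ι ⊕ η, Sum.elim (fun j => s j - c j) (fun h => p h - hd l c h) y *
      (fun q : Fin (k + 1) × (ι ⊕ η) => if q.2 = x then 1 else 0) (0, y) =
      Sum.elim (fun j => s j - c j) (fun h => p h - hd l c h) x := by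
    rw [Finset.sum_eq_single x]
    · simp
    · intro y _ hy
      simp [hy]
    · intro h'
      exact absurd (Finset.mem_univ _) h'
  rw [e2] at e1
  have e3 : IsWeightedHomogeneous (fun q : Fin (k + 1) × (ι ⊕ η) => if q.2 = x then 1 else 0)
      (aeval (yy l) F) (Sum.elim c (hd l c) x) := by
    refine wh_aeval _ (fun q : Fin k × ι => Sum.elim (fun j => if q.2 = j then 1 else 0)
      (fun h => if l q.2 = h then 1 else 0) x) _ (fun q => ?_) ?_
    · refine wh_yy l _ q _ ?_ ?_
      · rcases x with j | h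
        · simp [Sum.inl.injEq]
        · simp [Sum.inr.injEq]
      · rcases x with j | h
        · simp [Sum.inl.injEq]
        · simp [Sum.inr.injEq]
    · intro v hv
      rw [weight_fintype, Fintype.sum_prod_type_right]
      have h5 := hF.2 v hv
      rcases x with j | h
      · rw [Finset.sum_eq_single j]
        · simp only [Sum.elim_inl, if_true, mul_one]
          exact h5 j
        · intro y _ hy
          refine Finset.sum_eq_zero fun i _ => ?_
          simp [hy]
        · intro h'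
          exact absurd (Finset.mem_univ _) h'
      · simp only [Sum.elim_inr]
        rw [hd, Finset.sum_filter]
        refine Finset.sum_congr rfl fun j _ => ?_
        split_ifs
        · simp only [mul_one]
          exact h5 j
        · simp
  have e4 := e1.mul e3
  have e5 : Sum.elim (fun j => s j - c j) (fun h => p h - hd l c h) x + Sum.elim c (hd l c) x =
      Sum.elim s p x := by
    rcases x with j | h
    · simp only [Sum.elim_inl]
      have := h2 j
      omega
    · simp only [Sum.elim_inr]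
      have := h4 h
      omega
  rw [e5] at e4
  rw [← hw]
  exact e4 hv

/-- The lower row degrees. -/
lemma HH_row {s : ι → ℕ} {p : η → ℕ} {l : ι → η} {c : ι → ℕ} {tau : Fin k → ℕ}
    {F : MvPolynomial (Fin k × ι) ℂ}
    (hF : F ∈ KK k ι c tau) (v) (hv : coeff v (HH k s p l c F) ≠ 0) (i : Fin k) :
    ∑ x, v (i.succ, x) = tau i := by
  classical
  have hw : ∀ v : Fin (k + 1) × (ι ⊕ η) →₀ ℕ, Finsupp.weight
      (fun q : Fin (k + 1) × (ι ⊕ η) => if q.1 = i.succ then 1 else 0) v =
        ∑ x, v (i.succ, x) := by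
    intro v
    rw [weight_fintype, Fintype.sum_prod_type, Finset.sum_eq_single i.succ]
    · refine Finset.sum_congr rfl fun i _ => ?_
      rw [if_pos rfl, mul_one]
    · intro y _ hy
      refine Finset.sum_eq_zero fun i _ => ?_
      rw [if_neg hy, mul_zero]
    · intro h'
      exact absurd (Finset.mem_univ _) h'
  have e1 := wh_mo (k := k) s p l c
    (fun q : Fin (k + 1) × (ι ⊕ η) => if q.1 = i.succ then 1 else 0)
  have e2 : ∑ y : ι ⊕ η, Sum.elim (fun j => s j - c j) (fun h => p h - hd l c h) y *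
      (fun q : Fin (k + 1) × (ι ⊕ η) => if q.1 = i.succ then 1 else 0) (0, y) = 0 := by
    refine Finset.sum_eq_zero fun y _ => ?_
    beta_reduce
    rw [if_neg (Fin.succ_ne_zero i).symm, mul_zero]
  rw [e2] at e1
  have e3 : IsWeightedHomogeneous
      (fun q : Fin (k + 1) × (ι ⊕ η) => if q.1 = i.succ then 1 else 0)
      (aeval (yy l) F) (tau i) := by
    refine wh_aeval _ (fun q : Fin k × ι => if q.1 = i then 1 else 0) _ (fun q => ?_) ?_
    · refine wh_yy l _ q _ ?_ ?_
      · rw [if_neg (Fin.succ_ne_zero i).symm, zero_add]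
        simp only [Fin.succ_inj]
      · rw [if_neg (Fin.succ_ne_zero i).symm, add_zero]
        simp only [Fin.succ_inj]
    · intro v hv
      rw [weight_fintype, Fintype.sum_prod_type, Finset.sum_eq_single i]
      · simp only [if_true, mul_one]
        exact hF.1.1 v hv i
      · intro j _ hj
        refine Finset.sum_eq_zero fun c _ => ?_
        rw [if_neg hj, mul_zero]
      · intro h'
        exact absurd (Finset.mem_univ _) h'
  have e4 := e1.mul e3
  rw [zero_add] at e4
  rw [← hw]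
  exact e4 hv

lemma rowOp_X0 (s : Fin (k + 1)) (i : Fin k) (x : ι ⊕ η) :
    rowOp s i.succ (X (0, x) : MvPolynomial (Fin (k + 1) × (ι ⊕ η)) ℂ) = 0 := by
  rw [rowOp_var, if_neg (Fin.succ_ne_zero i).symm]

lemma rowOp_mo (s' : Fin (k + 1)) (i : Fin k) (s : ι → ℕ) (p : η → ℕ) (l : ι → η) (c : ι → ℕ) :
    rowOp s' i.succ (mo k s p l c) = 0 := by
  classical
  have hpow : ∀ (x : ι ⊕ η) (n : ℕ),
      rowOp s' i.succ (X (0, x) ^ n : MvPolynomial (Fin (k + 1) × (ι ⊕ η)) ℂ) = 0 := by
    intro x n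
    induction n with
    | zero =>
      rw [pow_zero, ← C_1]
      exact rowOp_C _ _ _
    | succ n ih => rw [pow_succ, rowOp_leibniz, ih, rowOp_X0, zero_mul, mul_zero, add_zero]
  have key : ∀ (t : Finset (ι ⊕ η)) (e : ι ⊕ η → ℕ),
      rowOp s' i.succ (∏ x ∈ t, X (0, x) ^ e x : MvPolynomial (Fin (k + 1) × (ι ⊕ η)) ℂ) = 0 := by
    intro t e
    induction t using Finset.induction_on with
    | empty =>
      rw [Finset.prod_empty, ← C_1]
      exact rowOp_C _ _ _
    | insert c t hc ih =>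
      rw [Finset.prod_insert hc, rowOp_leibniz, ih, hpow, zero_mul, mul_zero, add_zero]
  exact key _ _

lemma rowOp_yy (s' : Fin (k + 1)) (i : Fin k) (l : ι → η) (q : Fin k × ι) :
    rowOp s' i.succ (yy l q) = if q.1 = i then
      X (0, Sum.inr (l q.2)) * X (s', Sum.inl q.2) -
        X (s', Sum.inr (l q.2)) * X (0, Sum.inl q.2) else 0 := by
  rw [yy, map_sub, rowOp_leibniz, rowOp_leibniz, rowOp_X0, rowOp_X0, rowOp_var, rowOp_var]
  simp only [Fin.succ_inj]
  split_ifs
  · ring
  · ring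

/-- The lifted polynomial is a highest weight polynomial. -/
lemma HH_mem_HW {s : ι → ℕ} {p : η → ℕ} {l : ι → η} {c : ι → ℕ} {tau : Fin k → ℕ} {L : ℕ}
    (h2 : ∀ j, c j ≤ s j) (h4 : ∀ h, hd l c h ≤ p h)
    (h6 : ∑ j, s j + ∑ h, p h = L + ∑ i, tau i) {F : MvPolynomial (Fin k × ι) ℂ}
    (hF : F ∈ KK k ι c tau) : HH k s p l c F ∈ HW (k + 1) (ι ⊕ η) (Fin.cons L tau) := by
  classical
  refine ⟨fun v hv i => ?_, fun s' i hsi => ?_⟩
  · have h1 : ∀ i : Fin k, ∑ x, v (i.succ, x) = tau i := HH_row hF v hv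
    have h3 : ∑ i, ∑ x, v (i, x) = L + ∑ i, tau i := by
      rw [Finset.sum_comm, Finset.sum_congr rfl fun x _ => HH_col h2 h4 hF v hv x,
        Fintype.sum_sum_type, ← h6]
      rfl
    refine Fin.cases ?_ (fun i => ?_) i
    · have h8 : ∑ i : Fin k, ∑ x, v (i.succ, x) = ∑ i, tau i :=
        Finset.sum_congr rfl fun i _ => h1 i
      rw [Fin.sum_univ_succ, h8] at h3
      rw [Fin.cons_zero]
      omega
    · rw [Fin.cons_succ]
      exact h1 i
  · obtain ⟨i, rfl⟩ := Fin.exists_succ_eq.2 (Fin.pos_iff_ne_zero.1 ((Fin.zero_le s').trans_lt hsi))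
    rw [HH_apply, rowOp_leibniz, rowOp_mo, zero_mul, zero_add]
    revert hsi
    refine Fin.cases ?_ (fun s' => ?_) s'
    · intro _
      have h7 : rowOp 0 i.succ (aeval (yy l) F) = 0 := by
        refine rowOp_aeval_zero _ (fun q => ?_) F
        rw [rowOp_yy]
        split_ifs
        · ring
        · rfl
      rw [h7, mul_zero]
    · intro hsi
      have h7 : rowOp s'.succ i.succ (aeval (yy l) F) = aeval (yy l) (rowOp s' i F) := by
        refine rowOp_aeval _ (fun q => ?_) F
        rw [rowOp_yy, rowOp_var]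
        by_cases hp : q.1 = i
        · rw [if_pos hp, if_pos hp, aeval_X, yy]
        · rw [if_neg hp, if_neg hp, map_zero]
      rw [h7, hF.1.2 s' i (Fin.succ_lt_succ_iff.1 hsi), map_zero, mul_zero]

/-- The specialization. -/
noncomputable def sp (k : ℕ) (ι η : Type) :
    MvPolynomial (Fin (k + 1) × (ι ⊕ η)) ℂ →ₐ[ℂ] MvPolynomial (Fin k × ι) ℂ :=
  aeval fun q => Fin.cases (motive := fun _ => MvPolynomial (Fin k × ι) ℂ) 1
    (fun i => Sum.elim (fun j => X (i, j)) (fun _ => 0) q.2) q.1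

omit [Fintype ι] [Fintype η] in
lemma sp_zero (x : ι ⊕ η) : sp k ι η (X (0, x)) = 1 := by
  rw [sp, aeval_X]
  rfl

omit [Fintype ι] [Fintype η] in
lemma sp_inl (i : Fin k) (j : ι) : sp k ι η (X (i.succ, Sum.inl j)) = X (i, j) := by
  rw [sp, aeval_X]
  rfl

omit [Fintype ι] [Fintype η] in
lemma sp_inr (i : Fin k) (h : η) : sp k ι η (X (i.succ, Sum.inr h)) = 0 := by
  rw [sp, aeval_X]
  rfl

/-- The specialization of a permuted lift. -/
lemma sp_HH [DecidableEq ι] [DecidableEq η] (s : ι → ℕ) (p : η → ℕ) (l : ι → η) (c : ι → ℕ)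
    (F : MvPolynomial (Fin k × ι) ℂ)
    (e : Equiv.Perm (ι ⊕ η)) (τ : ι ≃ ι) (ρ : η ≃ η) (he : ∀ x, e.symm x = Sum.map τ ρ x) :
    sp k ι η (sb (k + 1) e (fun _ => 1) (HH k s p l c F)) =
      rename (fun q : Fin k × ι => (q.1, τ q.2)) F := by
  rw [sb_equiv, HH_apply, map_mul, map_mul]
  have h1 : sp k ι η (rename (fun q : Fin (k + 1) × (ι ⊕ η) => (q.1, e.symm q.2))
      (mo k s p l c)) = 1 := by
    rw [mo, map_prod, map_prod]
    refine Finset.prod_eq_one fun x _ => ?_
    rw [map_pow, map_pow, rename_X, sp_zero, one_pow]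
  rw [h1, one_mul]
  have h2 : ((sp k ι η).comp (rename (R := ℂ)
      (fun q : Fin (k + 1) × (ι ⊕ η) => (q.1, e.symm q.2)))).comp (aeval (yy l)) =
      rename (R := ℂ) (fun q : Fin k × ι => (q.1, τ q.2)) := by
    apply MvPolynomial.algHom_ext
    intro q
    rw [AlgHom.comp_apply, AlgHom.comp_apply, aeval_X, yy, map_sub, map_sub, map_mul, map_mul,
      map_mul, map_mul, rename_X, rename_X, rename_X, rename_X, rename_X]
    have e1 : e.symm (Sum.inl q.2) = Sum.inl (τ q.2) := he _
    have e2 : e.symm (Sum.inr (l q.2)) = Sum.inr (ρ (l q.2)) := he _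
    simp only [e1, e2]
    rw [sp_zero, sp_zero, sp_inl, sp_inr, one_mul, zero_mul, sub_zero]
  exact DFunLike.congr_fun h2 F

end lift

open scoped Classical in
/-- **(T4)** the lift. -/
theorem liftB : LiftB := by
  intro k L ι η _ _ s p l tau KS h1 h2 h3 h4 h5 h6
  have h4' : ∀ c ∈ KS, ∀ h, hd l c h ≤ p h := by
    intro c hc h
    refine le_trans (le_of_eq ?_) (h4 c hc h)
    rw [hd]
  let W := ∀ c : {c // c ∈ KS}, KK k ι c.1 tau
  have hmem : ∀ (c : {c // c ∈ KS}), ∀ F ∈ KK k ι c.1 tau,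
      (∑ e ∈ St (Sum.elim s p), (sb (k + 1) e (fun _ => 1)).toLinearMap ∘ₗ HH k s p l c.1) F ∈
        PK (k + 1) (ι ⊕ η) (Sum.elim s p) (Fin.cons L tau) := by
    intro c F hF
    rw [LinearMap.sum_apply]
    exact sym_mem_PK (Sum.elim s p) (Fin.cons L tau)
      (HH_mem_HW (h2 c.1 c.2) (h4' c.1 c.2) h6 hF)
      (HH_col (h2 c.1 c.2) (h4' c.1 c.2) hF)
  let Λ : W →ₗ[ℂ] PK (k + 1) (ι ⊕ η) (Sum.elim s p) (Fin.cons L tau) := ∑ c : {c // c ∈ KS},
    ((∑ e ∈ St (Sum.elim s p), (sb (k + 1) e (fun _ => 1)).toLinearMap ∘ₗ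
      HH k s p l c.1).restrict (p := KK k ι c.1 tau)
      (q := PK (k + 1) (ι ⊕ η) (Sum.elim s p) (Fin.cons L tau)) (hmem c)) ∘ₗ LinearMap.proj c
  have hΛ : ∀ x : W, ((Λ x : PK (k + 1) (ι ⊕ η) (Sum.elim s p) (Fin.cons L tau)) :
      MvPolynomial (Fin (k + 1) × (ι ⊕ η)) ℂ) = ∑ c : {c // c ∈ KS},
        ∑ e ∈ St (Sum.elim s p), sb (k + 1) e (fun _ => 1) (HH k s p l c.1 (x c : MvPolynomial _ ℂ)) := by
    intro x
    rw [LinearMap.sum_apply, Submodule.coe_sum]
    refine Finset.sum_congr rfl fun c _ => ?_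
    have h7 : ((∑ e ∈ St (Sum.elim s p), (sb (k + 1) e (fun _ => 1)).toLinearMap ∘ₗ
      HH k s p l c.1) (x c : MvPolynomial _ ℂ)) = ∑ e ∈ St (Sum.elim s p),
        sb (k + 1) e (fun _ => 1) (HH k s p l c.1 (x c : MvPolynomial _ ℂ)) := by
      rw [LinearMap.sum_apply]
      rfl
    rw [← h7]
    rfl
  -- the permutations split
  have hsplit : ∀ e ∈ St (Sum.elim s p), ∃ (τ : ι ≃ ι) (ρ : η ≃ η),
      (∀ x, e.symm x = Sum.map τ ρ x) ∧ ∀ j, s (τ j) = s j := by
    intro e he
    have he' : ∀ x, Sum.elim s p (e.symm x) = Sum.elim s p x := fun x => by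
      have := mem_St.1 he (e.symm x)
      rw [Equiv.apply_symm_apply] at this
      exact this.symm
    obtain ⟨τ, ρ, h7⟩ := split_equiv e.symm (fun j => by
      rcases h : e.symm (Sum.inl j) with j' | h'
      · exact ⟨j', rfl⟩
      · exfalso
        have h8 := he' (Sum.inl j)
        rw [h, Sum.elim_inl, Sum.elim_inr] at h8
        have := h1 j h'
        omega) (fun x => by
      rcases h : e.symm (Sum.inr x) with j' | h'
      · exfalso
        have h8 := he' (Sum.inr x)
        rw [h, Sum.elim_inl, Sum.elim_inr] at h8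
        have := h1 j' x
        omega
      · exact ⟨h', rfl⟩)
    refine ⟨τ, ρ, h7, fun j => ?_⟩
    have h8 := he' (Sum.inl j)
    rw [h7] at h8
    exact h8
  have hinj : Function.Injective Λ := by
    rw [← LinearMap.ker_eq_bot, LinearMap.ker_eq_bot']
    intro x hx
    have hx' := hΛ x
    rw [hx, Submodule.coe_zero] at hx'
    funext c0
    apply Subtype.ext
    ext w
    rw [Pi.zero_apply, Submodule.coe_zero, coeff_zero]
    by_contra hw
    have hkey : ∀ (c : {c // c ∈ KS}) (e : Equiv.Perm (ι ⊕ η)), e ∈ St (Sum.elim s p) →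
        coeff w (sp k ι η (sb (k + 1) e (fun _ => 1)
          (HH k s p l c.1 (x c : MvPolynomial _ ℂ)))) ≠ 0 →
        c = c0 ∧ coeff w (sp k ι η (sb (k + 1) e (fun _ => 1)
          (HH k s p l c.1 (x c : MvPolynomial _ ℂ)))) =
          coeff w (x c0 : MvPolynomial (Fin k × ι) ℂ) := by
      intro c e he hne
      obtain ⟨τ, ρ, h7, h8⟩ := hsplit e he
      rw [sp_HH s p l c.1 _ e τ ρ h7] at hne ⊢
      have h9 : rename (fun q : Fin k × ι => (q.1, τ q.2)) (x c : MvPolynomial (Fin k × ι) ℂ) =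
          sb k τ.symm (fun _ => 1) (x c : MvPolynomial (Fin k × ι) ℂ) := by
        rw [sb_equiv, Equiv.symm_symm]
      rw [h9, coeff_sb_equiv] at hne
      have h10 := (x c).2.2 _ hne
      have h11 := (x c0).2.2 w hw
      have h12 : ∀ j, c0.1 (τ j) = c.1 j := by
        intro j
        rw [← h10 j, ← h11 (τ j)]
        refine Finset.sum_congr rfl fun i _ => ?_
        rw [tr_apply, Equiv.symm_symm]
      have h13 : ∀ j, τ j = j := by
        intro j
        by_contra h14
        exact h5 c.1 c.2 c0.1 c0.2 j (τ j) (h8 j).symm (Ne.symm h14) (h12 j).symm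
      have h15 : c = c0 := by
        apply Subtype.ext
        funext j
        rw [← h12 j, h13 j]
      refine ⟨h15, ?_⟩
      subst h15
      have h16 : (fun q : Fin k × ι => (q.1, τ q.2)) = id := by
        funext q
        rw [h13]
        rfl
      rw [h16, rename_id_apply]
    have h7 := congrArg (fun P => coeff w (sp k ι η P)) hx'
    beta_reduce at h7
    rw [map_zero, coeff_zero, map_sum, coeff_sum, Finset.sum_eq_single c0] at h7
    · rw [map_sum, coeff_sum] at h7
      have h8 : ∀ e ∈ St (Sum.elim s p), coeff w (sp k ι η (sb (k + 1) e (fun _ => 1)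
          (HH k s p l c0.1 (x c0 : MvPolynomial _ ℂ)))) =
          if coeff w (sp k ι η (sb (k + 1) e (fun _ => 1)
            (HH k s p l c0.1 (x c0 : MvPolynomial _ ℂ)))) = 0 then 0 else
              coeff w (x c0 : MvPolynomial (Fin k × ι) ℂ) := by
        intro e he
        split_ifs with h
        · exact h
        · exact (hkey c0 e he h).2
      rw [Finset.sum_congr rfl h8, Finset.sum_ite, Finset.sum_const_zero, zero_add,
        Finset.sum_const, nsmul_eq_mul] at h7
      refine (mul_ne_zero ?_ hw) h7.symm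
      rw [Nat.cast_ne_zero, ← Nat.pos_iff_ne_zero, Finset.card_pos]
      refine ⟨1, Finset.mem_filter.2 ⟨mem_St.2 fun x => rfl, ?_⟩⟩
      rw [sp_HH s p l c0.1 _ 1 (Equiv.refl _) (Equiv.refl _) (fun x => by
        rcases x with j | h <;> rfl)]
      have h16 : (fun q : Fin k × ι => (q.1, (Equiv.refl ι) q.2)) = id := by
        funext q
        rfl
      rw [h16, rename_id_apply]
      exact hw
    · intro c _ hc
      rw [map_sum, coeff_sum]
      refine Finset.sum_eq_zero fun e he => ?_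
      by_contra h
      exact hc (hkey c e he h).1
    · intro h'
      exact absurd (Finset.mem_univ _) h'
  have hfr : Module.finrank ℂ W = ∑ c : {c // c ∈ KS}, Module.finrank ℂ (KK k ι c.1 tau) := by
    rw [Module.finrank_pi_fintype]
  have h8 := LinearMap.finrank_le_finrank_of_injective hinj
  rw [hfr] at h8
  refine le_trans (le_of_eq ?_) h8
  exact (Finset.sum_coe_sort KS (fun c => Module.finrank ℂ (KK k ι c tau))).symm

end Vale.Agent.P181.TL.H248
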