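import Vale.Agent.P181.TL.H353.Ref

set_option autoImplicit false

/-!
# P181, TL (T4+): polarization of columns along a map, and its collapse
-/

open MvPolynomial

namespace Vale.Agent.P181.TL.H248

open Vale.Agent.P181.T4 (HW rowOp rowOp_apply mem_HW)
open Vale.Agent.P181.SZ.R1b (cmp coeff_cmp cmp_rowOp cdeg)
open Vale.Agent.P181.DG6.H887 (lsub lsub_X lsub_mem_HW)
open Vale.Agent.P181.TL.H353 (coeff_prod_ne coeff_pow_ne)

section collapse

variable {k : ℕ} {σ τ : Type} [Fintype σ] [Fintype τ] [DecidableEq σ]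

/-- The matrix of the substitution along `g`. -/
def AG (g : τ → σ) : σ → τ → ℂ := fun s t => if g t = s then 1 else 0

omit [Fintype σ] in
lemma lsub_AG (g : τ → σ) (p : Fin k × σ) :
    lsub k (AG g) (X p) = ∑ t ∈ Finset.univ.filter (fun t => g t = p.2), X (p.1, t) := by
  rw [lsub_X, Finset.sum_filter]
  refine Finset.sum_congr rfl fun t _ => ?_
  by_cases h : g t = p.2
  · simp [AG, h]
  · simp [AG, h]

/-- The columns are separated by new variables. -/
noncomputable def Lg (k : ℕ) (g : τ → σ) :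
    MvPolynomial (Fin k × τ) ℂ →ₐ[ℂ] MvPolynomial τ (MvPolynomial (Fin k × σ) ℂ) :=
  aeval (fun p => X p.2 * C (X (p.1, g p.2)))

/-- The number of refinements. -/
noncomputable def Pg (g : τ → σ) (c : σ → ℕ) : MvPolynomial τ ℕ :=
  ∏ s, (∑ t ∈ Finset.univ.filter (fun t => g t = s), X t) ^ c s

lemma coeff_Pg {g : τ → σ} {c : σ → ℕ} {u : τ → ℕ}
    (h : ∀ s, ∑ t ∈ Finset.univ.filter (fun t => g t = s), u t = c s) :
    coeff (Finsupp.equivFunOnFinite.symm u) (Pg g c) ≠ 0 := by
  classical
  have h1 : Pg g c = ∏ t : τ, (∑ t' ∈ Finset.univ.filter (fun t' => g t' = g t), X t') ^ u t := by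
    rw [Pg, ← Finset.prod_fiberwise Finset.univ g]
    refine Finset.prod_congr rfl fun s _ => ?_
    rw [← h s, ← Finset.prod_pow_eq_pow_sum]
    refine Finset.prod_congr rfl fun t ht => ?_
    rw [(Finset.mem_filter.1 ht).2]
  have h2 : Finsupp.equivFunOnFinite.symm u = ∑ p : τ, u p • Finsupp.single p 1 := by
    ext q
    rw [Finsupp.finsetSum_apply, Finset.sum_eq_single q]
    · simp
    · intro p _ hp
      simp [hp]
    · intro h
      exact absurd (Finset.mem_univ _) h
  rw [h1, h2]
  apply coeff_prod_ne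
  intro t _
  apply coeff_pow_ne
  rw [coeff_sum]
  have h3 := Finset.single_le_sum
    (f := fun r' : τ => coeff (Finsupp.single t 1) (X r' : MvPolynomial τ ℕ))
    (s := Finset.univ.filter (fun t' => g t' = g t))
    (fun _ _ => Nat.zero_le _) (Finset.mem_filter.2 ⟨Finset.mem_univ t, rfl⟩)
  have h4 : coeff (Finsupp.single t 1) (X t : MvPolynomial τ ℕ) = 1 := by
    rw [coeff_X, if_pos rfl]
  have h5 : coeff (Finsupp.single t 1) (X t : MvPolynomial τ ℕ) ≤
    ∑ r' ∈ Finset.univ.filter (fun t' => g t' = g t),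
      coeff (Finsupp.single t 1) (X r' : MvPolynomial τ ℕ) := h3
  rw [h4] at h5
  exact Nat.one_le_iff_ne_zero.1 h5

lemma Lg_C (g : τ → σ) (a : ℂ) : Lg k g (C a) = C (C a) := by
  have h4 : (C a : MvPolynomial (Fin k × τ) ℂ) = algebraMap ℂ _ a := rfl
  rw [h4, AlgHom.commutes]
  rfl

lemma Lg_lsub {g : τ → σ} {c : σ → ℕ} {F : MvPolynomial (Fin k × σ) ℂ}
    (hF : ∀ v, coeff v F ≠ 0 → ∀ j, ∑ i, v (i, j) = c j) :
    Lg k g (lsub k (AG g) F) =
      map (Nat.castRingHom (MvPolynomial (Fin k × σ) ℂ)) (Pg g c) * C F := by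
  classical
  have hX : ∀ p : Fin k × σ, Lg k g (lsub k (AG g) (X p)) =
      (∑ t ∈ Finset.univ.filter (fun t => g t = p.2), X t) * C (X p) := by
    intro p
    rw [lsub_AG, map_sum, Finset.sum_mul]
    refine Finset.sum_congr rfl fun r hr => ?_
    rw [Lg, aeval_X]
    simp only
    rw [(Finset.mem_filter.1 hr).2]
  have hm : ∀ v ∈ F.support, Lg k g (lsub k (AG g) (monomial v (coeff v F))) =
      map (Nat.castRingHom (MvPolynomial (Fin k × σ) ℂ)) (Pg g c) *
        C (monomial v (coeff v F)) := by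
    intro v hv
    have hv' := hF v (mem_support_iff.1 hv)
    have h1 : (monomial v (coeff v F) : MvPolynomial (Fin k × σ) ℂ) =
        C (coeff v F) * ∏ p, X p ^ v p := by
      rw [monomial_eq, Finsupp.prod_fintype]
      intro i
      exact pow_zero _
    have h2 : map (Nat.castRingHom (MvPolynomial (Fin k × σ) ℂ)) (Pg g c) =
        ∏ p : Fin k × σ, (∑ t ∈ Finset.univ.filter (fun t => g t = p.2), X t) ^ v p := by
      rw [Fintype.prod_prod_type_right, Pg, map_prod]
      refine Finset.prod_congr rfl fun i _ => ?_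
      rw [map_pow, map_sum]
      simp only [map_X]
      rw [Finset.prod_pow_eq_pow_sum, hv' i]
    have h3 : Lg k g (lsub k (AG g) (C (coeff v F))) = C (C (coeff v F)) := by
      have h4 : (C (coeff v F) : MvPolynomial (Fin k × σ) ℂ) = algebraMap ℂ _ (coeff v F) := rfl
      rw [h4, AlgHom.commutes, AlgHom.commutes]
      rfl
    rw [h1, map_mul, map_mul, h3, map_prod, map_prod, h2, map_mul, map_prod, ← mul_assoc,
      mul_comm _ (C (C (coeff v F))), mul_assoc, ← Finset.prod_mul_distrib]
    congr 1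
    refine Finset.prod_congr rfl fun p _ => ?_
    rw [map_pow, map_pow, hX, mul_pow, map_pow]
  conv_lhs => rw [F.as_sum, map_sum, map_sum]
  rw [Finset.sum_congr rfl hm, ← Finset.mul_sum, ← map_sum, ← F.as_sum]

lemma coeff_Lg (g : τ → σ) (u : τ → ℕ) (G : MvPolynomial (Fin k × τ) ℂ) :
    coeff (Finsupp.equivFunOnFinite.symm u) (Lg k g G) =
      rename (fun p : Fin k × τ => (p.1, g p.2)) (cmp u G) := by
  classical
  have hL : Lg k g G = ∑ w ∈ G.support, monomial (Finsupp.equivFunOnFinite.symm (cdeg w))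
      (rename (fun p : Fin k × τ => (p.1, g p.2)) (monomial w (coeff w G))) := by
    conv_lhs => rw [G.as_sum, map_sum]
    refine Finset.sum_congr rfl fun w _ => ?_
    rw [monomial_eq, Finsupp.prod_fintype _ _ (fun i => pow_zero _), map_mul, map_prod, Lg_C,
      map_mul, map_prod, rename_C, monomial_eq, Finsupp.prod_fintype _ _ (fun i => pow_zero _),
      map_mul, mul_assoc]
    congr 1
    have h6 : ∀ p : Fin k × τ, Lg k g (X p ^ w p) =
        C (rename (fun p : Fin k × τ => (p.1, g p.2)) (X p ^ w p)) * X p.2 ^ w p := by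
      intro p
      rw [map_pow, Lg, aeval_X, mul_pow, map_pow, map_pow, rename_X, mul_comm]
    rw [Finset.prod_congr rfl fun p _ => h6 p, Finset.prod_mul_distrib, map_prod]
    congr 1
    rw [Fintype.prod_prod_type_right]
    refine Finset.prod_congr rfl fun j _ => ?_
    simp only
    rw [Finset.prod_pow_eq_pow_sum]
    rfl
  have hR : cmp u G = ∑ w ∈ G.support, if cdeg w = u then monomial w (coeff w G) else 0 := by
    apply MvPolynomial.ext
    intro v
    rw [coeff_cmp, coeff_sum]
    have h : ∀ w ∈ G.support, coeff v (if cdeg w = u then monomial w (coeff w G) else 0) =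
        if w = v then (if cdeg w = u then coeff w G else 0) else 0 := by
      intro w _
      split_ifs with h1 h2 h2
      · rw [coeff_monomial, if_pos h2]
      · rw [coeff_monomial, if_neg h2]
      · exact coeff_zero _
      · exact coeff_zero _
    rw [Finset.sum_congr rfl h, Finset.sum_ite_eq']
    by_cases hv : v ∈ G.support
    · rw [if_pos hv]
    · rw [if_neg hv, notMem_support_iff.1 hv, ite_self]
  rw [hL, hR, coeff_sum, map_sum]
  refine Finset.sum_congr rfl fun w _ => ?_
  rw [coeff_monomial]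
  by_cases h : cdeg w = u
  · rw [if_pos (by rw [h]), if_pos h]
  · rw [if_neg (fun h' => h (Finsupp.equivFunOnFinite.symm.injective h')), if_neg h, map_zero]

/-- The collapse of the polarization. -/
lemma collapse {g : τ → σ} {c : σ → ℕ} {F : MvPolynomial (Fin k × σ) ℂ}
    (hF : ∀ v, coeff v F ≠ 0 → ∀ j, ∑ i, v (i, j) = c j) (u : τ → ℕ) :
    rename (fun p : Fin k × τ => (p.1, g p.2)) (cmp u (lsub k (AG g) F)) =
      ((coeff (Finsupp.equivFunOnFinite.symm u) (Pg g c) : ℕ) : ℂ) • F := by
  rw [← coeff_Lg, Lg_lsub hF, mul_comm, coeff_C_mul, coeff_map, mul_comm, eq_natCast,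
    Nat.cast_smul_eq_nsmul, nsmul_eq_mul]

end collapse

end Vale.Agent.P181.TL.H248
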