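import Vale.Agent.P181.TL.Defs

set_option autoImplicit false

/-!
# P181, TL (T4+): divisibility

`F` a highest weight polynomial of weight `tau` (rows `0, .., k`), `V` a vector of `k + 2` entries,
`y (i, j) = V 0 * x (i + 1, j) - V (i + 1) * x (0, j)`: then `V 0 ^ (tau 1 + .. + tau k)` divides
`F y`.
-/

open MvPolynomial

namespace Vale.Agent.P181.TL.H248

open Vale.Agent.P181.T4 (HW rowOp rowOp_apply)

section

variable {R : Type*} [CommRing R] [Algebra ℂ R]

/-- The chain rule. -/
lemma deriv_aeval {τ : Type} [Fintype τ] (φ : τ → Polynomial R) (F : MvPolynomial τ ℂ) :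
    Polynomial.derivative (aeval φ F) =
      ∑ p, aeval φ (pderiv p F) * Polynomial.derivative (φ p) := by
  classical
  induction F using MvPolynomial.induction_on with
  | C a =>
    rw [algHom_C, Polynomial.algebraMap_apply, Polynomial.derivative_C]
    refine (Finset.sum_eq_zero fun p _ => ?_).symm
    rw [pderiv_C, map_zero, zero_mul]
  | add f g hf hg =>
    rw [map_add, map_add, hf, hg, ← Finset.sum_add_distrib]
    refine Finset.sum_congr rfl fun p _ => ?_
    rw [map_add, map_add, add_mul]
  | mul_X f q ih =>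
    rw [map_mul, Polynomial.derivative_mul, ih, aeval_X]
    have h1 : ∀ p, aeval φ (pderiv p (f * X q)) * Polynomial.derivative (φ p) =
        aeval φ (pderiv p f) * Polynomial.derivative (φ p) * φ q +
          if p = q then aeval φ f * Polynomial.derivative (φ p) else 0 := by
      intro p
      rw [pderiv_mul, map_add, map_mul, map_mul, aeval_X, pderiv_X]
      by_cases hpq : p = q
      · subst hpq
        rw [if_pos rfl, Pi.single_eq_same, map_one]
        ring
      · rw [if_neg hpq, Pi.single_eq_of_ne' hpq, map_zero]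
        ring
    rw [Finset.sum_congr rfl fun p _ => h1 p, Finset.sum_add_distrib, Finset.sum_ite_eq',
      if_pos (Finset.mem_univ _), Finset.sum_mul]

/-- A polynomial killed by the operators from the top row does not change when multiples of the
top row are added to the other rows. -/
lemma shear [IsDomain R] {n : ℕ} {σ : Type} [Fintype σ] (F : MvPolynomial (Fin (n + 1) × σ) ℂ)
    (hF : ∀ i : Fin (n + 1), 0 < i → rowOp 0 i F = 0) (Z : Fin (n + 1) × σ → R)
    (c : Fin (n + 1) → R) (hc : c 0 = 0) :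
    aeval (fun p : Fin (n + 1) × σ => Z p + c p.1 * Z (0, p.2)) F = aeval Z F := by
  classical
  have : CharZero R := charZero_of_injective_algebraMap (algebraMap ℂ R).injective
  set φ : Fin (n + 1) × σ → Polynomial R :=
    fun p => Polynomial.C (Z p) + Polynomial.X * Polynomial.C (c p.1 * Z (0, p.2)) with hφ
  have h0 : ∀ j, φ (0, j) = Polynomial.C (Z (0, j)) := by
    intro j
    simp only [hφ, hc, zero_mul, Polynomial.C_0, mul_zero, add_zero]
  have h1 : ∀ p, Polynomial.derivative (φ p) = Polynomial.C (c p.1) * aeval φ (X (0, p.2) :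
      MvPolynomial (Fin (n + 1) × σ) ℂ) := by
    intro p
    rw [aeval_X, h0]
    simp only [hφ, Polynomial.derivative_add, Polynomial.derivative_C, Polynomial.derivative_mul,
      Polynomial.derivative_X, zero_add, one_mul, mul_zero, zero_mul, add_zero, Polynomial.C_mul]
  have h2 : Polynomial.derivative (aeval φ F) = 0 := by
    rw [deriv_aeval, Fintype.sum_prod_type]
    refine Finset.sum_eq_zero fun i _ => ?_
    have h3 : ∀ j, aeval φ (pderiv (i, j) F) * Polynomial.derivative (φ (i, j)) =
        Polynomial.C (c i) * aeval φ (X (0, j) * pderiv (i, j) F) := by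
      intro j
      rw [h1, map_mul]
      ring
    rw [Finset.sum_congr rfl fun j _ => h3 j, ← Finset.mul_sum, ← map_sum, ← rowOp_apply]
    by_cases hi : i = 0
    · rw [hi, hc, Polynomial.C_0, zero_mul]
    · rw [hF i (Fin.pos_iff_ne_zero.2 hi), map_zero, mul_zero]
  have h4 : ∀ t : R, Polynomial.eval t (aeval φ F) =
      aeval (fun p => Polynomial.eval t (φ p)) F := by
    intro t
    have := MvPolynomial.comp_aeval_apply (φ := ((Polynomial.aeval t : Polynomial R →ₐ[R] R).restrictScalars ℂ)) φ F
    simpa [Polynomial.coe_aeval_eq_eval] using this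
  have h5 := Polynomial.eq_C_of_natDegree_eq_zero
    (Polynomial.derivative_eq_zero.1 h2)
  have h6 := h4 1
  have h7 := h4 0
  rw [h5, Polynomial.eval_C] at h6 h7
  rw [h6] at h7
  have h8 : (fun p => Polynomial.eval 1 (φ p)) = fun p => Z p + c p.1 * Z (0, p.2) := by
    funext p
    simp [hφ]
  have h9 : (fun p => Polynomial.eval 0 (φ p)) = Z := by
    funext p
    simp [hφ]
  rw [h8, h9] at h7
  exact h7

/-- Scaling of the rows. -/
lemma row_scale {n : ℕ} {σ : Type} [Fintype σ] {tau : Fin n → ℕ}
    (F : MvPolynomial (Fin n × σ) ℂ) (hF : ∀ v, coeff v F ≠ 0 → ∀ i, ∑ j, v (i, j) = tau i)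
    (Z : Fin n × σ → R) (t : Fin n → R) :
    aeval (fun p : Fin n × σ => t p.1 * Z p) F = (∏ i, t i ^ tau i) * aeval Z F := by
  classical
  rw [aeval_def, aeval_def, eval₂_eq', eval₂_eq', Finset.mul_sum]
  refine Finset.sum_congr rfl fun v hv => ?_
  have h1 : ∏ p, (t p.1 * Z p) ^ v p = (∏ i, t i ^ tau i) * ∏ p, Z p ^ v p := by
    simp only [mul_pow]
    rw [Finset.prod_mul_distrib]
    congr 1
    rw [Fintype.prod_prod_type]
    refine Finset.prod_congr rfl fun i _ => ?_
    rw [← hF v (mem_support_iff.1 hv) i, ← Finset.prod_pow_eq_pow_sum]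
  rw [h1]
  ring

/-- **(T4+), divisibility.** -/
theorem dvd_head [IsDomain R] {k : ℕ} {σ : Type} [Fintype σ] {tau : Fin (k + 1) → ℕ}
    {F : MvPolynomial (Fin (k + 1) × σ) ℂ} (hF : F ∈ HW (k + 1) σ tau)
    (V : Fin (k + 2) → R) (x : Fin (k + 2) × σ → R) (hp : Prime (V 0)) (hn : ¬ V 0 ∣ V 1) :
    V 0 ^ (∑ i : Fin k, tau i.succ) ∣
      aeval (fun p : Fin (k + 1) × σ => V 0 * x (p.1.succ, p.2) - V p.1.succ * x (0, p.2)) F := by
  classical
  set y : Fin (k + 1) × σ → R :=
    fun p => V 0 * x (p.1.succ, p.2) - V p.1.succ * x (0, p.2) with hy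
  set N := ∑ i : Fin k, tau i.succ with hN
  have e1 := row_scale F hF.1 y (fun i => if i = 0 then 1 else V 1)
  have e2 := row_scale F hF.1 (fun p : Fin (k + 1) × σ => if p.1 = 0 then y p else
    V 1 * x (p.1.succ, p.2) - V p.1.succ * x (1, p.2)) (fun i => if i = 0 then 1 else V 0)
  have hprod : ∀ a : R, (∏ i : Fin (k + 1), (if i = 0 then 1 else a) ^ tau i) = a ^ N := by
    intro a
    rw [Fin.prod_univ_succ, if_pos rfl, one_pow, one_mul, hN, ← Finset.prod_pow_eq_pow_sum]
    refine Finset.prod_congr rfl fun i _ => ?_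
    rw [if_neg (Fin.succ_ne_zero i)]
  rw [hprod] at e1 e2
  have e3 := shear F (fun i hi => hF.2 0 i hi) (fun p : Fin (k + 1) × σ =>
    (if p.1 = 0 then 1 else V 1) * y p) (fun i => if i = 0 then 0 else - V i.succ) (if_pos rfl)
  have e4 : (fun p : Fin (k + 1) × σ => (if p.1 = 0 then 1 else V 1) * y p +
      (if p.1 = 0 then 0 else - V p.1.succ) *
        ((if (0 : Fin (k + 1)) = 0 then 1 else V 1) * y (0, p.2))) =
      fun p => (if p.1 = 0 then 1 else V 0) * if p.1 = 0 then y p else
        V 1 * x (p.1.succ, p.2) - V p.1.succ * x (1, p.2) := by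
    funext p
    by_cases h : p.1 = 0
    · simp [h]
    · simp only [h, if_false, if_true, hy, Fin.succ_zero_eq_one]
      ring
  rw [show (fun p : Fin (k + 1) × σ => (fun p : Fin (k + 1) × σ =>
    (if p.1 = 0 then 1 else V 1) * y p) p + (fun i => if i = 0 then 0 else - V i.succ) p.1 *
      (fun p : Fin (k + 1) × σ => (if p.1 = 0 then 1 else V 1) * y p) (0, p.2)) = _ from e4,
    e2, e1] at e3
  have e5 : V 0 ^ N ∣ V 1 ^ N * aeval y F := by
    rw [← e3]
    exact dvd_mul_right _ _
  exact hp.pow_dvd_of_dvd_mul_left N (fun h => hn (hp.dvd_of_dvd_pow h)) e5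

end

end Vale.Agent.P181.TL.H248
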