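import Vale.Agent.P181.TL.DefsP
import Vale.Agent.P181.TL.H248.T4
import Vale.Agent.P181.TL.H248.Div
import Vale.Agent.P181.TL.H248.Collapse

set_option autoImplicit false

/-!
# P181, TL (T4+): the lift with small heads
-/

open MvPolynomial

namespace Vale.Agent.P181.TL.H248

open Vale.Agent.P181.T4 (HW finiteDimensional_HW rowOp rowOp_apply rowOp_leibniz rowOp_C rowOp_var
  mem_HW)
open Vale.Agent.P181.SZ (PK)
open Vale.Agent.P181.SZR2 (wh_aeval weight_fintype wh_X)
open Vale.Agent.P181.SZR2a (rowOp_aeval rowOp_aeval_zero)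
open Vale.Agent.P181.DGx.H248
open Vale.Agent.P181.DU.H248 (sb_equiv tr tr_apply coeff_sb_equiv split_equiv pr_inj)
open Vale.Agent.P181.SZ.R1b (cmp coeff_cmp cmp_rowOp cdeg)
open Vale.Agent.P181.DG6.H887 (lsub lsub_X lsub_mem_HW)

section mono

variable {n : ℕ} {σ : Type} [Fintype σ]

/-- A monomial in the variables of the top row. -/
noncomputable def w0 (n : ℕ) (E : σ → ℕ) : Fin (n + 1) × σ →₀ ℕ :=
  Finsupp.equivFunOnFinite.symm fun p => if p.1 = 0 then E p.2 else 0

lemma w0_zero (E : σ → ℕ) (x : σ) : w0 n E (0, x) = E x := by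
  simp [w0]

lemma w0_succ (E : σ → ℕ) (i : Fin n) (x : σ) : w0 n E (i.succ, x) = 0 := by
  simp [w0, Fin.succ_ne_zero]

lemma rowOp_w0 (E : σ → ℕ) (s : Fin (n + 1)) (i : Fin n) :
    rowOp s i.succ (monomial (w0 n E) (1 : ℂ)) = 0 := by
  rw [rowOp_apply]
  refine Finset.sum_eq_zero fun j _ => ?_
  rw [pderiv_monomial, w0_succ, Nat.cast_zero, mul_zero, monomial_zero, mul_zero]

/-- Multiplication by a monomial in the variables of the top row. -/
lemma w0_mem {tau : Fin n → ℕ} {L0 : ℕ} (E : σ → ℕ) {G : MvPolynomial (Fin (n + 1) × σ) ℂ}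
    (hG : G ∈ HW (n + 1) σ (Fin.cons L0 tau)) :
    monomial (w0 n E) 1 * G ∈ HW (n + 1) σ (Fin.cons (L0 + ∑ x, E x) tau) := by
  classical
  refine ⟨fun v hv i => ?_, fun s i hsi => ?_⟩
  · rw [coeff_monomial_mul'] at hv
    by_cases hle : w0 n E ≤ v
    · rw [if_pos hle, one_mul] at hv
      have h1 := hG.1 _ hv i
      have h2 : ∑ j, v (i, j) = ∑ j, (v - w0 n E) (i, j) + ∑ j, w0 n E (i, j) := by
        rw [← Finset.sum_add_distrib]
        refine Finset.sum_congr rfl fun j _ => ?_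
        have := hle (i, j)
        rw [Finsupp.tsub_apply]
        omega
      rw [h2, h1]
      refine Fin.cases ?_ (fun i => ?_) i
      · simp only [w0_zero, Fin.cons_zero]
      · simp only [w0_succ, Fin.cons_succ, Finset.sum_const_zero, add_zero]
    · rw [if_neg hle] at hv
      exact absurd rfl hv
  · obtain ⟨i, rfl⟩ := Fin.exists_succ_eq.2 (Fin.pos_iff_ne_zero.1 ((Fin.zero_le s).trans_lt hsi))
    rw [rowOp_leibniz, rowOp_w0, zero_mul, zero_add, hG.2 s i.succ hsi, mul_zero]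

lemma w0_col {d : σ → ℕ} (E : σ → ℕ) {G : MvPolynomial (Fin (n + 1) × σ) ℂ}
    (hG : ∀ v, coeff v G ≠ 0 → ∀ x, ∑ i, v (i, x) = d x) (v)
    (hv : coeff v (monomial (w0 n E) 1 * G) ≠ 0) (x : σ) : ∑ i, v (i, x) = E x + d x := by
  classical
  rw [coeff_monomial_mul'] at hv
  by_cases hle : w0 n E ≤ v
  · rw [if_pos hle, one_mul] at hv
    have h2 : ∑ i, v (i, x) = ∑ i, (v - w0 n E) (i, x) + ∑ i, w0 n E (i, x) := by
      rw [← Finset.sum_add_distrib]
      refine Finset.sum_congr rfl fun i _ => ?_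
      have := hle (i, x)
      rw [Finsupp.tsub_apply]
      omega
    rw [h2, hG _ hv x, Fin.sum_univ_succ, w0_zero]
    simp only [w0_succ, Finset.sum_const_zero, add_zero]
    exact add_comm _ _
  · rw [if_neg hle] at hv
    exact absurd rfl hv

/-- Division by a monomial in the variables of the top row. -/
lemma w0_div_mem {tau : Fin n → ℕ} {L0 : ℕ} (E : σ → ℕ) {G : MvPolynomial (Fin (n + 1) × σ) ℂ}
    (hG : monomial (w0 n E) 1 * G ∈ HW (n + 1) σ (Fin.cons (L0 + ∑ x, E x) tau)) :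
    G ∈ HW (n + 1) σ (Fin.cons L0 tau) := by
  classical
  refine ⟨fun v hv i => ?_, fun s i hsi => ?_⟩
  · have h1 : coeff (w0 n E + v) (monomial (w0 n E) 1 * G) ≠ 0 := by
      rw [coeff_monomial_mul, one_mul]
      exact hv
    have h2 := hG.1 _ h1 i
    have h3 : ∑ j, (w0 n E + v) (i, j) = ∑ j, w0 n E (i, j) + ∑ j, v (i, j) := by
      rw [← Finset.sum_add_distrib]
      rfl
    rw [h3] at h2
    revert h2
    refine Fin.cases ?_ (fun i => ?_) i
    · simp only [w0_zero, Fin.cons_zero]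
      intro h2
      omega
    · simp only [w0_succ, Fin.cons_succ, Finset.sum_const_zero, zero_add]
      exact id
  · have h1 := hG.2 s i hsi
    obtain ⟨i, rfl⟩ := Fin.exists_succ_eq.2 (Fin.pos_iff_ne_zero.1 ((Fin.zero_le s).trans_lt hsi))
    rw [rowOp_leibniz, rowOp_w0, zero_mul, zero_add] at h1
    rcases mul_eq_zero.1 h1 with h2 | h2
    · exfalso
      rw [monomial_eq_zero] at h2
      exact one_ne_zero h2
    · exact h2

lemma w0_div_col {d : σ → ℕ} (E : σ → ℕ) {G : MvPolynomial (Fin (n + 1) × σ) ℂ}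
    (hG : ∀ v, coeff v (monomial (w0 n E) 1 * G) ≠ 0 → ∀ x, ∑ i, v (i, x) = E x + d x) (v)
    (hv : coeff v G ≠ 0) (x : σ) : ∑ i, v (i, x) = d x := by
  classical
  have h1 : coeff (w0 n E + v) (monomial (w0 n E) 1 * G) ≠ 0 := by
    rw [coeff_monomial_mul, one_mul]
    exact hv
  have h2 := hG _ h1 x
  have h3 : ∑ i, (w0 n E + v) (i, x) = ∑ i, w0 n E (i, x) + ∑ i, v (i, x) := by
    rw [← Finset.sum_add_distrib]
    rfl
  rw [h3, Fin.sum_univ_succ, w0_zero] at h2
  simp only [w0_succ, Finset.sum_const_zero, add_zero] at h2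
  omega

end mono

section sp

variable {k : ℕ} {ι η : Type} [Fintype ι] [Fintype η]

/-- The specialization commutes with permutations. -/
lemma sp_sb [DecidableEq ι] [DecidableEq η] (e : Equiv.Perm (ι ⊕ η)) (τ : ι ≃ ι) (ρ : η ≃ η)
    (he : ∀ x, e.symm x = Sum.map τ ρ x) (G : MvPolynomial (Fin (k + 1) × (ι ⊕ η)) ℂ) :
    sp k ι η (sb (k + 1) e (fun _ => 1) G) =
      rename (fun q : Fin k × ι => (q.1, τ q.2)) (sp k ι η G) := by
  rw [sb_equiv]
  have h2 : (sp k ι η).comp (rename (R := ℂ)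
      (fun q : Fin (k + 1) × (ι ⊕ η) => (q.1, e.symm q.2))) =
      (rename (R := ℂ) (fun q : Fin k × ι => (q.1, τ q.2))).comp (sp k ι η) := by
    apply MvPolynomial.algHom_ext
    rintro ⟨i, x⟩
    rw [AlgHom.comp_apply, AlgHom.comp_apply, rename_X]
    simp only [he]
    refine Fin.cases ?_ (fun i => ?_) i
    · rw [sp_zero, sp_zero, map_one]
    · rcases x with j | h
      · rw [Sum.map_inl, sp_inl, sp_inl, rename_X]
      · rw [Sum.map_inr, sp_inr, sp_inr, map_zero]
  exact DFunLike.congr_fun h2 G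

lemma sp_w0 (E : ι ⊕ η → ℕ) : sp k ι η (monomial (w0 k E) 1) = 1 := by
  rw [monomial_eq, Finsupp.prod_fintype _ _ (fun i => pow_zero _), C_1, one_mul, map_prod]
  refine Finset.prod_eq_one fun p _ => ?_
  obtain ⟨i, x⟩ := p
  rw [map_pow]
  refine Fin.cases ?_ (fun i => ?_) i
  · rw [sp_zero, one_pow]
  · rw [w0_succ, pow_zero]

/-- The interface. -/
def Psi (k : ℕ) (ι η : Type) [Fintype ι] [Fintype η] (c : ι → ℕ) (r : η → ℕ)
    (tau : Fin (k + 1) → ℕ) : Prop :=
  ∃ (m : ℕ) (Ψ : KK (k + 1) ι c tau →ₗ[ℂ] MvPolynomial (Fin (k + 2) × (ι ⊕ η)) ℂ), m ≠ 0 ∧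
    (∀ F, Ψ F ∈ HW (k + 2) (ι ⊕ η) (Fin.cons (tau 0) tau)) ∧
    (∀ F v, coeff v (Ψ F) ≠ 0 → ∀ x, ∑ i, v (i, x) = Sum.elim c r x) ∧
    ∀ F, sp (k + 1) ι η (Ψ F) = (m : ℂ) • (F : MvPolynomial (Fin (k + 1) × ι) ℂ)

end sp

open scoped Classical in
/-- **(T4+), assembly.** -/
theorem liftC_of (hP : ∀ (k : ℕ) (ι η : Type) [Fintype ι] [Fintype η] (c : ι → ℕ) (r : η → ℕ)
    (tau : Fin (k + 1) → ℕ), ∑ h, r h = tau 0 → ∑ j, c j = ∑ i, tau i → Psi k ι η c r tau) :
    LiftC := by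
  intro k L ι η _ _ s p r tau KS h1 hr hrs h2 h3 h5 h6
  choose m Ψ hm hΨ1 hΨ2 hΨ3 using fun c : {c // c ∈ KS} => hP k ι η c.1 r tau hrs (h3 c.1 c.2)
  let E : {c // c ∈ KS} → ι ⊕ η → ℕ := fun c =>
    Sum.elim (fun j => s j - c.1 j) (fun h => p h - r h)
  let W := ∀ c : {c // c ∈ KS}, KK (k + 1) ι c.1 tau
  let HC : ∀ c : {c // c ∈ KS}, KK (k + 1) ι c.1 tau →ₗ[ℂ]
      MvPolynomial (Fin (k + 2) × (ι ⊕ η)) ℂ := fun c =>
    (LinearMap.mulLeft ℂ (monomial (w0 (k + 1) (E c)) 1)) ∘ₗ Ψ c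
  have hHC : ∀ c F, HC c F = monomial (w0 (k + 1) (E c)) 1 * Ψ c F := fun c F => rfl
  have hE : ∀ c : {c // c ∈ KS}, tau 0 + ∑ x, E c x = L := by
    intro c
    have e1 : ∑ x, E c x = ∑ j, (s j - c.1 j) + ∑ h, (p h - r h) := Fintype.sum_sum_type _
    have e2 : ∑ j, (s j - c.1 j) + ∑ j, c.1 j = ∑ j, s j := by
      rw [← Finset.sum_add_distrib]
      exact Finset.sum_congr rfl fun j _ => Nat.sub_add_cancel (h2 c.1 c.2 j)
    have e3 : ∑ h, (p h - r h) + ∑ h, r h = ∑ h, p h := by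
      rw [← Finset.sum_add_distrib]
      exact Finset.sum_congr rfl fun j _ => Nat.sub_add_cancel (hr j)
    have e4 := h3 c.1 c.2
    omega
  have hmem : ∀ c F, (∑ e ∈ St (Sum.elim s p), (sb (k + 2) e (fun _ => 1)).toLinearMap ∘ₗ HC c) F
      ∈ PK (k + 2) (ι ⊕ η) (Sum.elim s p) (Fin.cons L tau) := by
    intro c F
    rw [LinearMap.sum_apply]
    refine sym_mem_PK (Sum.elim s p) (Fin.cons L tau) (H := HC c F) ?_ ?_
    · have := w0_mem (E c) (hΨ1 c F)
      rw [hE c] at this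
      exact this
    · intro v hv x
      rw [w0_col (E c) (hΨ2 c F) v hv x]
      rcases x with j | h
      · exact Nat.sub_add_cancel (h2 c.1 c.2 j)
      · exact Nat.sub_add_cancel (hr h)
  let Λ : W →ₗ[ℂ] PK (k + 2) (ι ⊕ η) (Sum.elim s p) (Fin.cons L tau) := ∑ c : {c // c ∈ KS},
    ((∑ e ∈ St (Sum.elim s p), (sb (k + 2) e (fun _ => 1)).toLinearMap ∘ₗ HC c).codRestrict
      (PK (k + 2) (ι ⊕ η) (Sum.elim s p) (Fin.cons L tau)) (hmem c)) ∘ₗ LinearMap.proj c
  have hΛ : ∀ x : W, ((Λ x : PK (k + 2) (ι ⊕ η) (Sum.elim s p) (Fin.cons L tau)) :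
      MvPolynomial (Fin (k + 2) × (ι ⊕ η)) ℂ) = ∑ c : {c // c ∈ KS},
        ∑ e ∈ St (Sum.elim s p), sb (k + 2) e (fun _ => 1) (HC c (x c)) := by
    intro x
    rw [LinearMap.sum_apply, Submodule.coe_sum]
    refine Finset.sum_congr rfl fun c _ => ?_
    have h7 : (∑ e ∈ St (Sum.elim s p), (sb (k + 2) e (fun _ => 1)).toLinearMap ∘ₗ HC c) (x c) =
        ∑ e ∈ St (Sum.elim s p), sb (k + 2) e (fun _ => 1) (HC c (x c)) := by
      rw [LinearMap.sum_apply]
      rfl
    rw [← h7]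
    rfl
  have hsp : ∀ (c : {c // c ∈ KS}) (F : KK (k + 1) ι c.1 tau), sp (k + 1) ι η (HC c F) =
      (m c : ℂ) • (F : MvPolynomial (Fin (k + 1) × ι) ℂ) := by
    intro c F
    rw [hHC, map_mul, sp_w0, one_mul, hΨ3]
  -- the permutations split
  have hsplit : ∀ e ∈ St (Sum.elim s p), ∃ (τ : ι ≃ ι) (ρ : η ≃ η),
      (∀ x, e.symm x = Sum.map τ ρ x) ∧ ∀ j, s (τ j) = s j := by
    intro e he
    have he' : ∀ x, Sum.elim s p (e.symm x) = Sum.elim s p x := fun x => by
      have := mem_St.1 he (e.symm x)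
      rw [Equiv.apply_symm_apply] at this
      exact this.symm
    obtain ⟨τ, ρ, h7⟩ := split_equiv e.symm (fun j => by
      rcases h : e.symm (Sum.inl j) with j' | h'
      · exact ⟨j', rfl⟩
      · exfalso
        have h8 := he' (Sum.inl j)
        rw [h, Sum.elim_inl, Sum.elim_inr] at h8
        have := h1 j h'
        omega) (fun x => by
      rcases h : e.symm (Sum.inr x) with j' | h'
      · exfalso
        have h8 := he' (Sum.inr x)
        rw [h, Sum.elim_inl, Sum.elim_inr] at h8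
        have := h1 j' x
        omega
      · exact ⟨h', rfl⟩)
    refine ⟨τ, ρ, h7, fun j => ?_⟩
    have h8 := he' (Sum.inl j)
    rw [h7] at h8
    exact h8
  have hinj : Function.Injective Λ := by
    rw [← LinearMap.ker_eq_bot, LinearMap.ker_eq_bot']
    intro x hx
    have hx' := hΛ x
    rw [hx, Submodule.coe_zero] at hx'
    funext c0
    apply Subtype.ext
    ext w
    rw [Pi.zero_apply, Submodule.coe_zero, coeff_zero]
    by_contra hw
    have hkey : ∀ (c : {c // c ∈ KS}) (e : Equiv.Perm (ι ⊕ η)), e ∈ St (Sum.elim s p) →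
        coeff w (sp (k + 1) ι η (sb (k + 2) e (fun _ => 1) (HC c (x c)))) ≠ 0 →
        c = c0 ∧ coeff w (sp (k + 1) ι η (sb (k + 2) e (fun _ => 1) (HC c (x c)))) =
          m c0 * coeff w (x c0 : MvPolynomial (Fin (k + 1) × ι) ℂ) := by
      intro c e he hne
      obtain ⟨τ, ρ, h7, h8⟩ := hsplit e he
      rw [sp_sb e τ ρ h7, hsp] at hne ⊢
      have h9 : rename (fun q : Fin (k + 1) × ι => (q.1, τ q.2))
          ((m c : ℂ) • (x c : MvPolynomial (Fin (k + 1) × ι) ℂ)) =
          sb (k + 1) τ.symm (fun _ => 1)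
            ((m c : ℂ) • (x c : MvPolynomial (Fin (k + 1) × ι) ℂ)) := by
        rw [sb_equiv, Equiv.symm_symm]
      rw [h9, coeff_sb_equiv, coeff_smul, smul_eq_mul] at hne
      have h10 := (x c).2.2 _ (right_ne_zero_of_mul hne)
      have h11 := (x c0).2.2 w hw
      have h12 : ∀ j, c0.1 (τ j) = c.1 j := by
        intro j
        rw [← h10 j, ← h11 (τ j)]
        refine Finset.sum_congr rfl fun i _ => ?_
        rw [tr_apply, Equiv.symm_symm]
      have h13 : ∀ j, τ j = j := by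
        intro j
        by_contra h14
        exact h5 c.1 c.2 c0.1 c0.2 j (τ j) (h8 j).symm (Ne.symm h14) (h12 j).symm
      have h15 : c = c0 := by
        apply Subtype.ext
        funext j
        rw [← h12 j, h13 j]
      refine ⟨h15, ?_⟩
      subst h15
      have h16 : (fun q : Fin (k + 1) × ι => (q.1, τ q.2)) = id := by
        funext q
        rw [h13]
        rfl
      rw [h16, rename_id_apply, coeff_smul, smul_eq_mul]
    have h7 := congrArg (fun P => coeff w (sp (k + 1) ι η P)) hx'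
    beta_reduce at h7
    rw [map_zero, coeff_zero, map_sum, coeff_sum, Finset.sum_eq_single c0] at h7
    · rw [map_sum, coeff_sum] at h7
      have h8 : ∀ e ∈ St (Sum.elim s p), coeff w (sp (k + 1) ι η (sb (k + 2) e (fun _ => 1)
          (HC c0 (x c0)))) =
          if coeff w (sp (k + 1) ι η (sb (k + 2) e (fun _ => 1) (HC c0 (x c0)))) = 0 then 0 else
              m c0 * coeff w (x c0 : MvPolynomial (Fin (k + 1) × ι) ℂ) := by
        intro e he
        split_ifs with h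
        · exact h
        · exact (hkey c0 e he h).2
      rw [Finset.sum_congr rfl h8, Finset.sum_ite, Finset.sum_const_zero, zero_add,
        Finset.sum_const, nsmul_eq_mul] at h7
      have hm0 : (m c0 : ℂ) ≠ 0 := Nat.cast_ne_zero.2 (hm c0)
      refine (mul_ne_zero ?_ (mul_ne_zero hm0 hw)) h7.symm
      rw [Nat.cast_ne_zero, ← Nat.pos_iff_ne_zero, Finset.card_pos]
      refine ⟨1, Finset.mem_filter.2 ⟨mem_St.2 fun x => rfl, ?_⟩⟩
      rw [sp_sb 1 (Equiv.refl _) (Equiv.refl _) (fun x => by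
        rcases x with j | h <;> rfl), hsp]
      have h16 : (fun q : Fin (k + 1) × ι => (q.1, (Equiv.refl ι) q.2)) = id := by
        funext q
        rfl
      rw [h16, rename_id_apply, coeff_smul, smul_eq_mul]
      exact mul_ne_zero hm0 hw
    · intro c _ hc
      rw [map_sum, coeff_sum]
      refine Finset.sum_eq_zero fun e he => ?_
      by_contra h
      exact hc (hkey c e he h).1
    · intro h'
      exact absurd (Finset.mem_univ _) h'
  have hfr : Module.finrank ℂ W = ∑ c : {c // c ∈ KS}, Module.finrank ℂ (KK (k + 1) ι c.1 tau) := by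
    rw [Module.finrank_pi_fintype]
  have h8 := LinearMap.finrank_le_finrank_of_injective hinj
  rw [hfr] at h8
  refine le_trans (le_of_eq ?_) h8
  exact (Finset.sum_coe_sort KS (fun c => Module.finrank ℂ (KK (k + 1) ι c tau))).symm

end Vale.Agent.P181.TL.H248
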